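import Vale.Agent.Lib.P262.Growth
import Vale.Agent.Lib.P262.Main

/-- The four lower bounds for signed prefix sums in the Euclidean unit ball, collected:
(1) centre-free forcing: for `k ≥ 1`, `d ≥ 2k` and `R^2 ≤ (501/250) k` there is a finite
sequence in the unit ball of `ℝ^d` such that for every signing and every centre `c` some
prefix sum is at distance `> R` from `c`;
(2) for `d ≥ 2` and `R^2 ≤ (501/500) (d - 1)` there is a finite sequence in the unit ball such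
that every signing has a prefix sum of norm `> R`;
(3) for `d ≥ 2` and `N ≥ d - 1` there are `N` unit vectors such that every signing has a prefix
sum of squared norm at least `d + 1 - 2^d / 2^N`;
(4) for `d ≥ 2` and `R < √(d+1)` there is a finite sequence in the unit ball such that every
signing has a prefix sum of norm `> R`. -/
theorem Vale.Agent.Results.P262.AllLowerBounds.result :
    (∀ d k : ℕ, 1 ≤ k → 2 * k ≤ d → ∀ R : ℝ, R ^ 2 ≤ 501 / 250 * (k : ℝ) →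
      ∃ (N : ℕ) (v : Fin N → EuclideanSpace ℝ (Fin d)), (∀ i, ‖v i‖ ≤ 1) ∧
        ∀ ε : Fin N → ℝ, (∀ i, ε i = 1 ∨ ε i = -1) → ∀ c : EuclideanSpace ℝ (Fin d),
          ∃ j, j ≤ N ∧ R < ‖(∑ i : Fin N with i.val < j, ε i • v i) - c‖) ∧
    (∀ d : ℕ, 2 ≤ d → ∀ R : ℝ, R ^ 2 ≤ 501 / 500 * ((d : ℝ) - 1) →
      ∃ (N : ℕ) (v : Fin N → EuclideanSpace ℝ (Fin d)), (∀ i, ‖v i‖ ≤ 1) ∧
        ∀ ε : Fin N → ℝ, (∀ i, ε i = 1 ∨ ε i = -1) →
          ∃ j, j ≤ N ∧ R < ‖∑ i : Fin N with i.val < j, ε i • v i‖) ∧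
    (∀ d N : ℕ, 2 ≤ d → d ≤ N + 1 →
      ∃ v : Fin N → EuclideanSpace ℝ (Fin d), (∀ i, ‖v i‖ = 1) ∧
        ∀ ε : Fin N → ℝ, (∀ i, ε i = 1 ∨ ε i = -1) →
          ∃ k, k ≤ N ∧
            (d : ℝ) + 1 - 2 ^ d / 2 ^ N ≤ ‖∑ i : Fin N with i.val < k, ε i • v i‖ ^ 2) ∧
    (∀ d : ℕ, 2 ≤ d → ∀ R : ℝ, R < Real.sqrt ((d : ℝ) + 1) →
      ∃ (N : ℕ) (v : Fin N → EuclideanSpace ℝ (Fin d)), (∀ i, ‖v i‖ ≤ 1) ∧
        ∀ ε : Fin N → ℝ, (∀ i, ε i = 1 ∨ ε i = -1) →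
          ∃ k, k ≤ N ∧ R < ‖∑ i : Fin N with i.val < k, ε i • v i‖) := by
  refine ⟨fun d k hk1 hk R hR => Vale.Agent.Lib.P262.center_free_growth d k hk1 hk R hR, ?_,
    fun d N hd hN => Vale.Agent.Lib.P262.lower_bound_quant d N hd hN,
    fun d hd R hR => Vale.Agent.Lib.P262.lower_bound_sup d hd R hR⟩
  intro d hd R hR
  have hk1 : 1 ≤ d / 2 := by omega
  have hk : 2 * (d / 2) ≤ d := Nat.mul_div_le d 2
  have hd2 : d ≤ 2 * (d / 2) + 1 := by omega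
  have hd2' : (d : ℝ) ≤ 2 * ((d / 2 : ℕ) : ℝ) + 1 := by exact_mod_cast hd2
  exact Vale.Agent.Lib.P262.growth_constant d (d / 2) hk1 hk R (by linarith)
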