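import Vale.Agent.Lib.P262.Growth

/-- Centre-free forcing: for `k ≥ 1`, `d ≥ 2k` and `R^2 ≤ (501/250) k` there is a finite
sequence of vectors in the Euclidean unit ball of `ℝ^d` such that for every signing and every
centre `c` some prefix sum is at distance `> R` from `c`. -/
theorem Vale.Agent.Results.P262.CenterFreeGrowth.result :
    ∀ d k : ℕ, 1 ≤ k → 2 * k ≤ d → ∀ R : ℝ, R ^ 2 ≤ 501 / 250 * (k : ℝ) →
      ∃ (N : ℕ) (v : Fin N → EuclideanSpace ℝ (Fin d)), (∀ i, ‖v i‖ ≤ 1) ∧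
        ∀ ε : Fin N → ℝ, (∀ i, ε i = 1 ∨ ε i = -1) → ∀ c : EuclideanSpace ℝ (Fin d),
          ∃ j, j ≤ N ∧ R < ‖(∑ i : Fin N with i.val < j, ε i • v i) - c‖ :=
  fun d k hk1 hk R hR => Vale.Agent.Lib.P262.center_free_growth d k hk1 hk R hR
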