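import Vale.Agent.Lib.P262.Main

/-- For `d ≥ 2` and `N ≥ d - 1` there are `N` unit vectors in `ℝ^d` such that every signing
has a prefix sum of squared norm at least `d + 1 - 2^d / 2^N`.
Hence `σ(d, N)^2 ≥ d + 1 - 2^(d - N)`. -/
theorem Vale.Agent.Results.P262.LowerBoundQuant.result :
    ∀ d N : ℕ, 2 ≤ d → d ≤ N + 1 →
      ∃ v : Fin N → EuclideanSpace ℝ (Fin d), (∀ i, ‖v i‖ = 1) ∧
        ∀ ε : Fin N → ℝ, (∀ i, ε i = 1 ∨ ε i = -1) →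
          ∃ k, k ≤ N ∧
            (d : ℝ) + 1 - 2 ^ d / 2 ^ N ≤ ‖∑ i : Fin N with i.val < k, ε i • v i‖ ^ 2 :=
  fun d N hd hN => Vale.Agent.Lib.P262.lower_bound_quant d N hd hN
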