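import Vale.Agent.Lib.P262.Main

/-- For every `d ≥ 2` and every `R < √(d+1)` there is a finite sequence of vectors in the
Euclidean unit ball of `ℝ^d` such that every signing has a prefix sum of norm `> R`.
Hence `σ(d) ≥ √(d+1)`. -/
theorem Vale.Agent.Results.P262.LowerBoundSup.result :
    ∀ d : ℕ, 2 ≤ d → ∀ R : ℝ, R < Real.sqrt ((d : ℝ) + 1) →
      ∃ (N : ℕ) (v : Fin N → EuclideanSpace ℝ (Fin d)), (∀ i, ‖v i‖ ≤ 1) ∧
        ∀ ε : Fin N → ℝ, (∀ i, ε i = 1 ∨ ε i = -1) →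
          ∃ k, k ≤ N ∧ R < ‖∑ i : Fin N with i.val < k, ε i • v i‖ :=
  fun d hd R hR => Vale.Agent.Lib.P262.lower_bound_sup d hd R hR
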